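import Mathlib
import Vale.Agent.Helper25.TRDefs
import Vale.Agent.Helper25.TRFinal
import Vale.Agent.Helper25.TRFinite

namespace Vale.Agent.Results.P321.LowerNThreeHalves

open Vale.Agent.Helper25.TR

/-- For every fixed deletion probability `q ∈ (0,1)` there is `c > 0` with
`T_q(n) ≥ c n^{3/2}` for all `n ≥ 1` (no logarithmic loss).  The first clause records that the
set of sufficient sample numbers is nonempty, so that `T_q(n)` is a genuine minimum. -/
theorem result : ∀ q : ℝ, 0 < q → q < 1 → ∃ c : ℝ, 0 < c ∧ ∀ n : ℕ, 1 ≤ n →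
    Suffices q n (sampleComplexity q n) ∧
    c * (n : ℝ) ^ (3 / 2 : ℝ) ≤ (sampleComplexity q n : ℝ) := by
  intro q h0 h1
  obtain ⟨c, hc, h⟩ := lower_bound h0 h1
  refine ⟨c, hc, fun n hn => ?_⟩
  have hmem : Suffices q n (sampleComplexity q n) := Nat.sInf_mem (exists_suffices h0 h1 n)
  exact ⟨hmem, h n _ hn hmem⟩

end Vale.Agent.Results.P321.LowerNThreeHalves
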